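import Crest.Agent.N255.Tp.Stm
import Crest.Agent.N255.Wi.Abs
import Crest.Agent.N255.Tp.Sm
import Crest.Agent.N255.Tp.Cell
import Crest.Agent.N255.Tp.Uct

-- ▼ part N255/Wi/Main
section

/-!
# Row 255, block D (helper89): Wilder finiteness and uniform fillings
-/

set_option autoImplicit false
open Set Filter Topology

noncomputable section

namespace Crest.Agent.N255.Wi

open Crest.Agent.N255.Tp Crest.GeometryTopology.DeckCochains

section basic

variable {k : Type} [CommRing k] {X : Type} [TopologicalSpace X] {n : ℕ}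

theorem bd_sg (σ : Sx (n + 1) X) :
    bd k (sg k σ) = ∑ i : Fin (n + 2), (-1 : k) ^ (i : ℕ) • sg k (fc σ i) := by
  simp [bd]

theorem ev_sg {A : Type} [AddCommGroup A] [Module k A] (φ : Co A n X) (σ : Sx n X) :
    ev k φ (sg k σ) = φ σ := by simp [ev]

theorem ch_lin {M : Type*} [AddCommGroup M] [Module k M] {S : Set (Sx n X)} (T : Submodule k M)
    (f : Ch k n X →ₗ[k] M) (h : ∀ σ ∈ S, f (sg k σ) ∈ T) {c : Ch k n X}
    (hc : c ∈ Finsupp.supported k k S) : f c ∈ T := by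
  rw [Finsupp.supported_eq_span_single] at hc
  have : Submodule.span k ((fun i => Finsupp.single i (1 : k)) '' S) ≤ T.comap f := by
    refine Submodule.span_le.2 ?_
    rintro _ ⟨σ, hσ, rfl⟩
    exact h σ hσ
  exact this hc

theorem ev_bd' {A : Type} [AddCommGroup A] [Module k A] (φ : Co A n X) (c : Ch k (n + 1) X) :
    ev k φ (bd k c) = ev k (cob k φ) c := by
  have : ev k φ ∘ₗ bd k = ev k (cob k φ) := by
    refine Finsupp.lhom_ext' fun σ => LinearMap.ext_ring ?_
    show ev k φ (bd k (sg k σ)) = ev k (cob k φ) (sg k σ)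
    rw [bd_sg, map_sum, ev_sg]
    simp only [map_smul, ev_sg]
    rfl
  exact LinearMap.congr_fun this c

theorem cob_eq {A : Type} [AddCommGroup A] [Module k A] (φ : Co A n X) (σ : Sx (n + 1) X) :
    cob k φ σ = cochainCobdry (fun s => φ (R251.Sm.un s)) (R251.Sm.sx σ) := by
  show ∑ i : Fin (n + 2), (-1 : k) ^ (i : ℕ) • φ (fc σ i) =
    ∑ i : Fin (n + 2), ((-1 : ℤ) ^ (i : ℕ)) • φ (R251.Sm.un (simplexFace i (R251.Sm.sx σ)))
  refine Finset.sum_congr rfl fun i _ => ?_
  rw [R251.Sm.simplexFace_sx, R251.Sm.un_sx, ← Int.cast_smul_eq_zsmul k]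
  simp only [Int.cast_pow, Int.cast_neg, Int.cast_one]
  rfl

theorem cob_cob' {A : Type} [AddCommGroup A] [Module k A] (φ : Co A n X) :
    cob k (cob k φ) = 0 := by
  funext σ
  rw [cob_eq]
  have : (fun s => cob k φ (R251.Sm.un s)) = cochainCobdry (fun s => φ (R251.Sm.un s)) := by
    funext s
    rw [cob_eq, R251.Sm.sx_un]
  rw [this, R251.Sm.cobdry_cobdry]
  rfl

theorem bd_bd' (c : Ch k (n + 2) X) : bd k (bd k c) = 0 := by
  have h : ∀ m (c : Ch k m X), ev k (sg k) c = c := fun m c => by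
    have : ev k (sg k : Sx m X → Ch k m X) = LinearMap.id := by
      refine Finsupp.lhom_ext' fun σ => LinearMap.ext_ring ?_
      exact ev_sg (A := Ch k m X) (sg k) σ
    rw [this]; rfl
  rw [← h n (bd k (bd k c)), ev_bd', ev_bd', cob_cob']
  simp [ev]

theorem aug_bd_zero (c : Ch k 1 X) : aug k (bd k c) = 0 := by
  rw [aug, ev_bd']
  have : cob k (fun _ : Sx 0 X => (1 : k)) = 0 := by
    funext σ
    show ∑ i : Fin 2, (-1 : k) ^ (i : ℕ) • (1 : k) = 0
    simp
  rw [this]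
  simp [ev]

theorem bd_mem_rcyc : ∀ (n : ℕ) (c : Ch k (n + 1) X), bd k c ∈ rcyc k X n
  | 0, c => aug_bd_zero c
  | _ + 1, c => bd_bd' c

theorem ch_mono' {U V : Set X} (h : U ⊆ V) : (On U).ch k n ≤ (On V).ch k n :=
  Finsupp.supported_mono fun _ hσ => Subset.trans hσ h

theorem B_mono' {U V : Set X} (h : U ⊆ V) : (On U).B k n ≤ (On V).B k n :=
  Submodule.map_mono (ch_mono' h)

theorem sg_mem {P : Sb X} {σ : Sx n X} (h : σ ∈ P.S n) : sg k σ ∈ P.ch k n :=
  Finsupp.single_mem_supported k 1 h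

theorem bd_mem' (P : Sb X) {c : Ch k (n + 1) X} (hc : c ∈ P.ch k (n + 1)) : bd k c ∈ P.ch k n :=
  ch_lin _ (bd k) (fun σ hσ => by
    rw [bd_sg]
    exact Submodule.sum_mem _ fun i _ => Submodule.smul_mem _ _ (sg_mem (P.fc_mem _ σ i hσ))) hc

theorem ch_inter' (U V : Set X) : (On U).ch k n ⊓ (On V).ch k n ≤ (On (U ∩ V)).ch k n := by
  rw [Sb.ch, Sb.ch, ← Finsupp.supported_inter]
  exact Finsupp.supported_mono fun σ hσ => subset_inter hσ.1 hσ.2

theorem ch_empty' : (On (∅ : Set X)).ch k n = ⊥ := by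
  have : (On (∅ : Set X)).S n = ∅ := by
    refine eq_empty_of_forall_notMem fun σ hσ => ?_
    exact hσ (mem_range_self (stdSimplex.vertex 0))
  rw [Sb.ch, this, Finsupp.supported_empty]

theorem ch_split {U V : Set X} {S : Set (Sx n X)} (h : ∀ σ ∈ S, range σ ⊆ U ∨ range σ ⊆ V)
    {c : Ch k n X} (hc : c ∈ Finsupp.supported k k S) :
    ∃ a ∈ (On U).ch k n, ∃ b ∈ (On V).ch k n, a + b = c := by
  refine Submodule.mem_sup.1 ?_
  rw [Sb.ch, Sb.ch, ← Finsupp.supported_union]
  exact Finsupp.supported_mono h hc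


/-- every chain has compact support -/
theorem exists_cpt (c : Ch k n X) : ∃ K : Set X, IsCompact K ∧ c ∈ (On K).ch k n :=
  ⟨⋃ σ ∈ c.support, range σ, c.support.isCompact_biUnion fun σ _ => isCompact_range σ.continuous,
    fun _ hσ => subset_biUnion_of_mem (u := fun σ : Sx n X => range σ) hσ⟩

/-- evaluation as a bilinear map -/
def evL (k : Type) [CommRing k] (n : ℕ) (X : Type) [TopologicalSpace X] :
    Co k n X →ₗ[k] Ch k n X →ₗ[k] k where
  toFun φ := ev k φ
  map_add' φ ψ := by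
    refine Finsupp.lhom_ext' fun σ => LinearMap.ext_ring ?_
    show ev k (φ + ψ) (sg k σ) = ev k φ (sg k σ) + ev k ψ (sg k σ)
    simp only [ev_sg, Pi.add_apply]
  map_smul' r φ := by
    refine Finsupp.lhom_ext' fun σ => LinearMap.ext_ring ?_
    show ev k (r • φ) (sg k σ) = r • ev k φ (sg k σ)
    simp only [ev_sg, Pi.smul_apply]

end basic

/-- small cells around a point -/
theorem exists_cell {d : ℕ} {X : Type} [TopologicalSpace X] [ChartedSpace (EE d) X] {U : Set X}
    (hU : IsOpen U) {x : X} (hx : x ∈ U) :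
    ∃ j : C(EE d, X), IsOpenEmbedding j ∧ j 0 = x ∧ range j ⊆ U := by
  let e := chartAt (EE d) x
  have h1 : IsOpen (e.target ∩ e.symm ⁻¹' U) := e.symm.isOpen_inter_preimage hU
  have h2 : e x ∈ e.target ∩ e.symm ⁻¹' U :=
    ⟨mem_chart_target _ x, by
      show e.symm (e x) ∈ U
      rw [e.left_inv (mem_chart_source _ x)]; exact hx⟩
  obtain ⟨r, hr, hb⟩ := Metric.isOpen_iff.1 h1 _ h2
  let b : OpenPartialHomeomorph (EE d) (EE d) := OpenPartialHomeomorph.univBall (e x) r
  have hm : ∀ y, b y ∈ Metric.ball (e x) r := fun y => by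
    have := b.map_source (x := y) (by rw [OpenPartialHomeomorph.univBall_source]; trivial)
    rwa [OpenPartialHomeomorph.univBall_target _ hr] at this
  have hs : (b.trans e.symm).source = univ := by
    refine eq_univ_of_forall fun y => ?_
    rw [OpenPartialHomeomorph.trans_source]
    exact ⟨by rw [OpenPartialHomeomorph.univBall_source]; trivial, (hb (hm y)).1⟩
  have ho := (b.trans e.symm).isOpenEmbedding hs
  refine ⟨⟨b.trans e.symm, ho.continuous⟩, ho, ?_, ?_⟩
  · show e.symm (b 0) = x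
    rw [OpenPartialHomeomorph.univBall_apply_zero, e.left_inv (mem_chart_source _ x)]
  · rintro _ ⟨y, rfl⟩
    exact (hb (hm y)).2

section main

variable {k : Type} [Field k] {X : Type} [TopologicalSpace X]

/-- Wilder's theorem for a locally compact, homologically locally connected space -/
theorem wilder_red (hS : SmChS) [T2Space X] [LocallyCompactSpace X]
    (hl : ∀ U : Set X, IsOpen U → ∀ x ∈ U, ∃ V, IsOpen V ∧ x ∈ V ∧ V ⊆ U ∧ Acy k V U) :
    ∀ (n : ℕ) (K U : Set X), IsCompact K → IsOpen U → K ⊆ U →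
      ∃ V, IsOpen V ∧ K ⊆ V ∧ V ⊆ U ∧ FR ((On V).ch k n ⊓ rcyc k X n) ((On U).B k n)
  | 0, K, U, hK, hU, hKU => by
    refine step (aug k : Ch k 0 X →ₗ[k] k) (fun _ => ⊤) (fun A => (On A).ch k 0)
      (fun A => (On A).B k 0) (fun _ _ _ => le_rfl) (fun _ _ h => ch_mono' h)
      (fun _ _ h => B_mono' h) ch_empty' (fun _ => le_top) (fun _ _ => le_top) ?_ ?_ ?_ hK hU hKU
    · intro A B _ _ z hz h0
      obtain ⟨a, ha, b, hb, e⟩ := ch_split (U := A) (V := B) (fun σ hσ => by
        rcases hσ (mem_range_self (stdSimplex.vertex 0)) with h | h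
        · left; rintro _ ⟨t, rfl⟩; rwa [Subsingleton.elim t (stdSimplex.vertex 0)]
        · right; rintro _ ⟨t, rfl⟩; rwa [Subsingleton.elim t (stdSimplex.vertex 0)]) hz
      exact ⟨a, ha, b, hb, by rw [e]; exact h0, by rw [e, sub_self]; exact Submodule.zero_mem _⟩
    · intro U hU x hx
      obtain ⟨V, h1, h2, h3, h4⟩ := hl U hU x hx
      exact ⟨V, h1, h2, h3, FR.of_le (h4 0)⟩
    · intro _ _ _ _ _
      exact FR.of_fg ((Module.Finite.iff_fg).1 inferInstance)
  | n + 1, K, U, hK, hU, hKU => by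
    refine step (bd k : Ch k (n + 1) X →ₗ[k] Ch k n X) (fun A => (On A).ch k n)
      (fun A => (On A).ch k (n + 1))
      (fun A => (On A).B k (n + 1)) (fun _ _ h => ch_mono' h) (fun _ _ h => ch_mono' h)
      (fun _ _ h => B_mono' h) ch_empty' ?_ ch_inter' ?_ ?_ ?_ hK hU hKU
    · rintro A _ ⟨c, hc, rfl⟩
      exact bd_mem' _ hc
    · intro A B hA hB z hz h0
      obtain ⟨s, hs, h⟩ := hS k X (A ∪ B) {A, B} (by simp [hA, hB]) (by simp) n z hz
        (by rw [h0]; exact Submodule.zero_mem _)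
      obtain ⟨a, ha, b, hb, e⟩ := ch_split (U := A) (V := B) (fun σ hσ => by
        obtain ⟨W, hW, h'⟩ := hσ.2
        rcases hW with hW | hW
        · exact Or.inl (hW ▸ h')
        · exact Or.inr ((show W = B from hW) ▸ h')) hs
      refine ⟨a, ha, b, hb, ?_, by rw [e]; exact h⟩
      obtain ⟨w, -, hw⟩ := h
      have : s = z - bd k w := by rw [hw]; abel
      rw [e, this, map_sub, h0, bd_bd', sub_zero]
    · intro U hU x hx
      obtain ⟨V, h1, h2, h3, h4⟩ := hl U hU x hx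
      exact ⟨V, h1, h2, h3, FR.of_le (h4 (n + 1))⟩
    · intro K U hK hU hKU
      obtain ⟨V, -, h1, -, h2⟩ := wilder_red hS hl n K U hK hU hKU
      refine h2.mono (inf_le_inf (ch_mono' h1) ?_) le_rfl
      rintro _ ⟨c, rfl⟩
      exact bd_mem_rcyc n c

theorem fr_cyc {P : Sb X} {B : ∀ n, Submodule k (Ch k n X)} :
    ∀ n, FR (P.ch k n ⊓ rcyc k X n) (B n) → FR (P.ch k n ⊓ cyc k X n) (B n)
  | 0, h => by
    have h1 : FR ((P.ch k 0).map (aug k : Ch k 0 X →ₗ[k] k)) ⊥ :=
      FR.of_fg ((Module.Finite.iff_fg).1 inferInstance)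
    exact ((h1.comap _).mono inf_le_left le_rfl).trans h
  | _ + 1, h => h


theorem FR.finset {M : Type*} [AddCommGroup M] [Module k M] {Z B : Submodule k M} (h : FR Z B) :
    ∃ s : Finset M, (∀ c ∈ s, c ∈ Z) ∧ Z ≤ Submodule.span k (s : Set M) ⊔ B := by
  obtain ⟨F, ⟨s, rfl⟩, h1, h2⟩ := h.exists_le
  exact ⟨s, fun c hc => h1 (Submodule.subset_span hc), h2.trans (sup_le_sup_left inf_le_right _)⟩

theorem loc_acy (hC : CellS) (d : ℕ) [ChartedSpace (EE d) X] (U : Set X) (hU : IsOpen U) (x : X)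
    (hx : x ∈ U) : ∃ V, IsOpen V ∧ x ∈ V ∧ V ⊆ U ∧ Acy k V U := by
  obtain ⟨j, hj, h0, h⟩ := exists_cell (d := d) hU hx
  exact ⟨range j, hj.isOpen_range, ⟨0, h0⟩, h, fun n =>
    (hC k X d j hj.isEmbedding n).trans (B_mono' h)⟩

/-- **Wilder**, with an open neighbourhood `V` of `K` -/
theorem wilder_nhd (hS : SmChS) (hC : CellS) (d : ℕ) [T2Space X] [ChartedSpace (EE d) X] (n : ℕ)
    {K U : Set X} (hK : IsCompact K) (hU : IsOpen U) (hKU : K ⊆ U) :
    ∃ V, IsOpen V ∧ K ⊆ V ∧ V ⊆ U ∧ FR ((On V).ch k n ⊓ cyc k X n) ((On U).B k n) := by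
  have : LocallyCompactSpace X := ChartedSpace.locallyCompactSpace (EE d) X
  obtain ⟨V, h1, h2, h3, h4⟩ := wilder_red hS (loc_acy hC d) n K U hK hU hKU (k := k)
  exact ⟨V, h1, h2, h3, fr_cyc (B := fun n => (On U).B k n) n h4⟩

theorem wilder_fr (hS : SmChS) (hC : CellS) (d : ℕ) [T2Space X] [ChartedSpace (EE d) X] (n : ℕ)
    {K U : Set X} (hK : IsCompact K) (hU : IsOpen U) (hKU : K ⊆ U) :
    FR ((On K).ch k n ⊓ cyc k X n) ((On U).B k n) := by
  obtain ⟨V, -, h2, -, h4⟩ := wilder_nhd (k := k) hS hC d n hK hU hKU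
  exact h4.mono (inf_le_inf_right _ (ch_mono' h2)) le_rfl

theorem rcyc_le : ∀ n, rcyc k X n ≤ cyc k X n
  | 0 => le_top
  | _ + 1 => le_rfl

end main


theorem unifS_of (hS : SmChS) (hC : CellS) : UnifS := by
  intro k _ d X _ _ _ hA K hK n
  have : LocallyCompactSpace X := ChartedSpace.locallyCompactSpace (EE d) X
  obtain ⟨L, hL, hKL⟩ := exists_compact_superset hK
  have h := (wilder_fr (k := k) hS hC d n hK isOpen_interior hKL).mono
    (inf_le_inf_left _ (rcyc_le n)) (B_mono' interior_subset)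
  obtain ⟨K', h'⟩ := FR.le_of_directed (ι := {K' : Set X // IsCompact K'})
    (T := fun K' => (On K'.1).B k n) (fun a b => ⟨⟨a.1 ∪ b.1, a.2.union b.2⟩,
      B_mono' subset_union_left, B_mono' subset_union_right⟩) ⟨L, hL⟩ h (fun z hz => by
      obtain ⟨w, -, rfl⟩ := hA n ⟨ch_mono' (subset_univ _) hz.1, hz.2⟩
      obtain ⟨K', h1, h2⟩ := exists_cpt w
      exact ⟨⟨K', h1⟩, w, h2, rfl⟩)
  exact ⟨K'.1, K'.2, h'⟩

end Crest.Agent.N255.Wi

end
end

-- ▼ part N255/Wi/All

/-!
# Row 255, block D (helper89): closed forms of Wilder finiteness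
-/

set_option autoImplicit false
open Set Filter Topology

noncomputable section

namespace Crest.Agent.N255.Wi

open Crest.Agent.N255.Tp


theorem unifS_holds : UnifS := unifS_of smChS_holds cellS_holds

variable {k : Type} [Field k] {X : Type} [TopologicalSpace X] [T2Space X] {K U : Set X}




end Crest.Agent.N255.Wi

end
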